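import Vale.Agent.P181.Deep.Main
import Vale.Agent.P181.Layer.Main

/-!
Foulkes' multiplicity inequality for all weights with enough full columns.
-/

open Vale.Agent.P181.Deep

namespace Vale.Agent.Results.P181.DeepShapes

theorem result :
    (∀ (a m : ℕ), 2 ≤ a → 2 ≤ m → ∀ lam : Fin a → ℕ,
      (∀ l : Fin a, (l : ℕ) = a - 1 → 2 * m - 3 ≤ lam l) →
      ∃ Φ : HW a (m * a) lam →ₗ[ℂ] HW (m * a) a lam, Function.Injective Φ) ∧
    ∀ (a q r : ℕ), 2 ≤ a → 1 ≤ r → 2 * r ≤ q → 1 + Nat.clog 2 a + (a + 1) / 2 ≤ a →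
      ∀ lam : Fin a → ℕ,
      (∀ l : Fin a, (l : ℕ) = a - 1 → q + (q - 1) * Nat.clog 2 a + r * a ≤ lam l) →
      ∃ Φ : HW a (q * a + r) lam →ₗ[ℂ] HW (q * a + r) a lam, Function.Injective Φ := by
  refine ⟨fun a m ha hm lam hlam => Vale.Agent.P181.Layer.hw_injection_layers ha hm hlam,
    fun a q r ha hr h2 hb lam hlam => hw_injection ha (by omega) h2 ?_ hlam⟩
  rw [singleBudget, if_neg (by omega)]
  omega

end Vale.Agent.Results.P181.DeepShapes
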