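import Vale.Agent.P181.Poly.Main

/-!
Foulkes' conjecture for every `a` and every `b ≥ (a - 1)^2`.
-/

open MvPolynomial Vale.Agent.P181.Poly

namespace Vale.Agent.Results.P181.QuadraticRange

theorem result (a b n : ℕ) (hb : (a - 1) ^ 2 ≤ b) :
    ∃ Φ : MvPolynomial (Fin a × Fin n) ℂ →ₗ[ℂ] MvPolynomial (Fin b × Fin n) ℂ,
      (∀ f ∈ SymPow a b n, Φ f ∈ SymPow b a n) ∧
      (∀ f ∈ SymPow a b n, Φ f = 0 → f = 0) ∧
      ∀ (M : Matrix (Fin n) (Fin n) ℂ) (f : MvPolynomial (Fin a × Fin n) ℂ),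
        Φ (aeval (fun v : Fin a × Fin n => ∑ k, M v.2 k • X (v.1, k)) f) =
          aeval (fun v : Fin b × Fin n => ∑ k, M v.2 k • X (v.1, k)) (Φ f) :=
  exists_equivariant_injection a b n hb

end Vale.Agent.Results.P181.QuadraticRange
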